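import Mathlib
import Vale.Agent.P015.Corridor

namespace Vale.Agent.Results.P015.CorridorAxis

/-- No infinite walk on distinct Gaussian primes with steps of length at most `D` stays in the
region `|Im z| ≤ W + c log(2+|Re z|) / log(2+log(2+|Re z|))`, where `c = 1/(6(D+2))` and `W` is
arbitrary. -/
theorem result (D : ℝ) (hD : 0 ≤ D) (W : ℝ) :
    ¬ ∃ z : ℕ → GaussianInt, Function.Injective z ∧ (∀ n, Prime (z n)) ∧
      (∀ n, ‖((z (n + 1) : ℂ) - (z n : ℂ))‖ ≤ D) ∧
      (∀ n, |((z n).im : ℝ)| ≤
        W + (1 / (6 * (D + 2))) *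
          (Real.log (2 + |((z n).re : ℝ)|) /
            Real.log (2 + Real.log (2 + |((z n).re : ℝ)|)))) := by
  have hpos : 0 < 6 * (D + 2) := by linarith
  have h := Vale.Agent.P015.corridor_general 1 one_ne_zero D hD (1 / (6 * (D + 2))) W
    (by positivity) (by
      simp only [Zsqrtd.norm_one, Int.cast_one, Real.sqrt_one, mul_one]
      exact le_of_eq (one_div_mul_cancel (ne_of_gt hpos)))
  simpa using h

end Vale.Agent.Results.P015.CorridorAxis
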