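import Mathlib
import Vale.Agent.P015.Corridor

namespace Vale.Agent.Results.P015.CorridorLine

/-- No infinite bounded-step walk on distinct Gaussian primes stays in a corridor around the line
`ℝ v` (any nonzero Gaussian integer direction `v`) whose half-width is allowed to grow like
`log x / log log x` in the coordinate `x` along the line.
Here `Re (z * conj v)` is `|v|` times the coordinate of `z` along the line and
`Im (z * conj v)` is `|v|` times the signed distance of `z` from the line. -/
theorem result (v : GaussianInt) (hv : v ≠ 0) (D : ℝ) (hD : 0 ≤ D) (W : ℝ) :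
    ¬ ∃ z : ℕ → GaussianInt, Function.Injective z ∧ (∀ n, Prime (z n)) ∧
      (∀ n, ‖((z (n + 1) : ℂ) - (z n : ℂ))‖ ≤ D) ∧
      (∀ n, |((z n * star v).im : ℝ)| ≤
        W + (1 / (6 * (D * Real.sqrt (v.norm : ℝ) + 2))) *
          (Real.log (2 + |((z n * star v).re : ℝ)|) /
            Real.log (2 + Real.log (2 + |((z n * star v).re : ℝ)|)))) := by
  have hpos : 0 < 6 * (D * Real.sqrt (v.norm : ℝ) + 2) := by
    have := mul_nonneg hD (Real.sqrt_nonneg (v.norm : ℝ))
    linarith
  exact Vale.Agent.P015.corridor_general v hv D hD _ W (by positivity)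
    (le_of_eq (one_div_mul_cancel (ne_of_gt hpos)))

end Vale.Agent.Results.P015.CorridorLine
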