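import Mathlib
import Vale.Agent.P015.Corridor
import Vale.Agent.P015.MonoMain

namespace Vale.Agent.Results.P015.EveryWalk

/-- Constraints on every hypothetical infinite path of `G_D`.  Let `z 0, z 1, …` be pairwise
distinct Gaussian primes with all successive distances at most `D`.

* For every nonzero Gaussian integer `v` and every real `W` the walk leaves, infinitely often, the
  corridor `|Im (z conj v)| ≤ W + c log(2+|Re (z conj v)|) / log(2+log(2+|Re (z conj v)|))` around
  the line `ℝ v`, where `c = 1/(6 (D |v| + 2))`.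
* If from some index `N` on all steps are shorter than `√10`, then the tail of the walk from `N` on
  is not monotone in both coordinates. -/
theorem result (D : ℝ) (z : ℕ → GaussianInt) (hinj : Function.Injective z)
    (hprime : ∀ n, Prime (z n)) (hstep : ∀ n, ‖((z (n + 1) : ℂ) - (z n : ℂ))‖ ≤ D) :
    (∀ v : GaussianInt, v ≠ 0 → ∀ W : ℝ, ∀ N : ℕ, ∃ n, N ≤ n ∧
      W + (1 / (6 * (D * Real.sqrt (v.norm : ℝ) + 2))) *
          (Real.log (2 + |((z n * star v).re : ℝ)|) /
            Real.log (2 + Real.log (2 + |((z n * star v).re : ℝ)|))) <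
        |((z n * star v).im : ℝ)|) ∧
    (∀ N : ℕ, (∀ n, N ≤ n → ‖((z (n + 1) : ℂ) - (z n : ℂ))‖ < Real.sqrt 10) →
      ¬ ((Monotone (fun n => (z (N + n)).re) ∨ Antitone (fun n => (z (N + n)).re)) ∧
         (Monotone (fun n => (z (N + n)).im) ∨ Antitone (fun n => (z (N + n)).im)))) := by
  have hD : 0 ≤ D := le_trans (norm_nonneg _) (hstep 0)
  have hshift : ∀ N : ℕ, Function.Injective (fun n => z (N + n)) := by
    intro N a b hab
    exact Nat.add_left_cancel (hinj hab)
  constructor
  · intro v hv W N
    by_contra hcon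
    have hpos : 0 < 6 * (D * Real.sqrt (v.norm : ℝ) + 2) := by
      have := mul_nonneg hD (Real.sqrt_nonneg (v.norm : ℝ))
      linarith
    apply Vale.Agent.P015.corridor_general v hv D hD _ W (by positivity)
      (le_of_eq (one_div_mul_cancel (ne_of_gt hpos)))
    refine ⟨fun n => z (N + n), hshift N, fun n => hprime _, fun n => hstep (N + n), ?_⟩
    intro n
    by_contra hlt
    exact hcon ⟨N + n, Nat.le_add_right N n, not_le.1 hlt⟩
  · rintro N hshort ⟨hre, him⟩
    apply Vale.Agent.P015.Mono.no_monotone_walk
    exact ⟨fun n => z (N + n), hshift N, fun n => hprime _,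
      fun n => hshort (N + n) (Nat.le_add_right N n), hre, him⟩

end Vale.Agent.Results.P015.EveryWalk
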