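import Mathlib
import Vale.Agent.P015.MonoMain

namespace Vale.Agent.Results.P015.MonotoneWalk

/-- There is no infinite walk on distinct Gaussian primes with all steps of length `< √10`
(in particular with step bound `D = √8`, the first value of `D` beyond the known cases) along
which the real parts form a monotone sequence and the imaginary parts form a monotone sequence. -/
theorem result : ¬ ∃ z : ℕ → GaussianInt, Function.Injective z ∧ (∀ n, Prime (z n)) ∧
    (∀ n, ‖((z (n + 1) : ℂ) - (z n : ℂ))‖ < Real.sqrt 10) ∧
    (Monotone (fun n => (z n).re) ∨ Antitone (fun n => (z n).re)) ∧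
    (Monotone (fun n => (z n).im) ∨ Antitone (fun n => (z n).im)) :=
  Vale.Agent.P015.Mono.no_monotone_walk

end Vale.Agent.Results.P015.MonotoneWalk
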